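import Mathlib
set_option autoImplicit false
set_option linter.unusedSectionVars false

namespace Crest.Agent.PTFSens
open Matrix Finset

section Proj
variable {X : Type*} [Fintype X] [DecidableEq X]

/-- every subspace of `X → ℝ` has a symmetric idempotent matrix with that range. -/
theorem exists_proj (V : Submodule ℝ (X → ℝ)) :
    ∃ P : Matrix X X ℝ, Pᵀ = P ∧ P * P = P ∧ (∀ v ∈ V, P *ᵥ v = v) ∧ (∀ v, P *ᵥ v ∈ V) ∧
      P.trace = (Module.finrank ℝ V : ℝ) := by
  classical
  let e : EuclideanSpace ℝ X ≃ₗ[ℝ] (X → ℝ) := WithLp.linearEquiv 2 ℝ (X → ℝ)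
  let V' : Submodule ℝ (EuclideanSpace ℝ X) := V.comap e.toLinearMap
  let f : EuclideanSpace ℝ X →ₗ[ℝ] EuclideanSpace ℝ X := V'.starProjection.toLinearMap
  let g : (X → ℝ) →ₗ[ℝ] (X → ℝ) := e.toLinearMap ∘ₗ f ∘ₗ e.symm.toLinearMap
  have hg : ∀ v, g v = e (V'.starProjection (e.symm v)) := fun v => rfl
  have hmem : ∀ v, g v ∈ V := by
    intro v
    have := Submodule.starProjection_apply_mem V' (e.symm v)
    rw [hg]
    exact this
  have hfix : ∀ v ∈ V, g v = v := by
    intro v hv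
    have h1 : e.symm v ∈ V' := by
      show e (e.symm v) ∈ V
      simpa using hv
    rw [hg, Submodule.starProjection_eq_self_iff.mpr h1]
    simp
  have hP : ∀ v, (LinearMap.toMatrix' g) *ᵥ v = g v := fun v => LinearMap.toMatrix'_mulVec g v
  refine ⟨LinearMap.toMatrix' g, ?_, ?_, ?_, ?_, ?_⟩
  · -- symmetric
    ext i j
    rw [Matrix.transpose_apply, LinearMap.toMatrix'_apply, LinearMap.toMatrix'_apply]
    have hsym := Submodule.starProjection_isSymmetric V' (e.symm (Pi.single i 1)) (e.symm (Pi.single j 1))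
    have key : ∀ (u : EuclideanSpace ℝ X) (k : X), e u k = inner ℝ (e.symm (Pi.single k (1:ℝ))) u := by
      intro u k
      rw [EuclideanSpace.inner_eq_star_dotProduct]
      simp [e, dotProduct, Pi.single_apply]
    rw [hg, hg, key, key]
    rw [real_inner_comm]
    exact hsym
  · have : g ∘ₗ g = g := by
      ext1 v
      exact LinearMap.ext fun w => by
        simp only [LinearMap.comp_apply]
        exact hfix _ (hmem _)
    rw [← LinearMap.toMatrix'_comp, this]
  · intro v hv; rw [hP]; exact hfix v hv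
  · intro v; rw [hP]; exact hmem v
  · have hproj : LinearMap.IsProj V g := ⟨hmem, hfix⟩
    have := hproj.trace
    rw [← this, LinearMap.trace_eq_matrix_trace ℝ (Pi.basisFun ℝ X)]
    rfl

end Proj

section Abs
variable {X : Type*} [Fintype X] [DecidableEq X]

/-- symmetric idempotent -/
def IsPr (P : Matrix X X ℝ) : Prop := Pᵀ = P ∧ P * P = P

theorem IsPr.one : IsPr (1 : Matrix X X ℝ) := ⟨by simp, by simp⟩

theorem IsPr.one_sub {P : Matrix X X ℝ} (h : IsPr P) : IsPr (1 - P) := by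
  refine ⟨by simp [h.1], ?_⟩
  rw [sub_mul, mul_sub, mul_sub, h.2]; simp

theorem IsPr.sub {A B : Matrix X X ℝ} (hA : IsPr A) (hB : IsPr B) (h : B * A = A) :
    IsPr (B - A) := by
  have h' : A * B = A := by
    have := congrArg Matrix.transpose h
    rwa [Matrix.transpose_mul, hA.1, hB.1] at this
  refine ⟨by simp [hA.1, hB.1], ?_⟩
  rw [sub_mul, mul_sub, mul_sub, hA.2, hB.2, h, h']; abel

theorem IsPr.conj {P : Matrix X X ℝ} (h : IsPr P) {D : Matrix X X ℝ} (hD : Dᵀ = D)
    (hDD : D * D = 1) : IsPr (D * P * D) := by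
  refine ⟨by simp [Matrix.transpose_mul, hD, h.1, Matrix.mul_assoc], ?_⟩
  calc D * P * D * (D * P * D) = D * P * (D * D) * P * D := by simp [Matrix.mul_assoc]
    _ = D * (P * P) * D := by rw [hDD]; simp [Matrix.mul_assoc]
    _ = D * P * D := by rw [h.2]

theorem trace_mul_transpose_nonneg (M : Matrix X X ℝ) : 0 ≤ (M * Mᵀ).trace := by
  simp only [Matrix.trace, Matrix.diag, Matrix.mul_apply, Matrix.transpose_apply]
  exact Finset.sum_nonneg fun i _ => Finset.sum_nonneg fun j _ => mul_self_nonneg _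

theorem IsPr.trace_mul_nonneg {A B : Matrix X X ℝ} (hA : IsPr A) (hB : IsPr B) :
    0 ≤ (A * B).trace := by
  have h : (A * B) * (A * B)ᵀ = A * B * A := by
    rw [Matrix.transpose_mul, hA.1, hB.1]
    calc A * B * (B * A) = A * (B * B) * A := by simp [Matrix.mul_assoc]
      _ = _ := by rw [hB.2]
  have h2 : (A * B * A).trace = (A * B).trace := by
    rw [Matrix.trace_mul_comm, ← Matrix.mul_assoc, hA.2]
  rw [← h2, ← h]
  exact trace_mul_transpose_nonneg _

theorem IsPr.quad_nonneg {P : Matrix X X ℝ} (h : IsPr P) (v : X → ℝ) : 0 ≤ v ⬝ᵥ (P *ᵥ v) := by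
  have : v ⬝ᵥ (P *ᵥ v) = (P *ᵥ v) ⬝ᵥ (P *ᵥ v) := by
    conv_lhs => rw [← h.2, ← Matrix.mulVec_mulVec, Matrix.dotProduct_mulVec, ← Matrix.mulVec_transpose, h.1]
  rw [this]
  exact Finset.sum_nonneg fun i _ => mul_self_nonneg _

theorem IsPr.quad_le {A B : Matrix X X ℝ} (hA : IsPr A) (hB : IsPr B) (h : B * A = A)
    (v : X → ℝ) : v ⬝ᵥ (A *ᵥ v) ≤ v ⬝ᵥ (B *ᵥ v) := by
  have := (IsPr.sub hA hB h).quad_nonneg v
  rw [Matrix.sub_mulVec, dotProduct_sub] at this
  linarith

theorem col_sq_le {T : Matrix X X ℝ} (hT : Tᵀ = T) (hle : ∀ v : X → ℝ, v ⬝ᵥ (T *ᵥ v) ≤ v ⬝ᵥ v)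
    (hge : ∀ v : X → ℝ, -(v ⬝ᵥ v) ≤ v ⬝ᵥ (T *ᵥ v)) (x : X) : ∑ y, (T x y) ^ 2 ≤ 1 := by
  set u : X → ℝ := Pi.single x 1 with hu
  set v : X → ℝ := T *ᵥ u with hv
  have h1 := hle (u + v)
  have h2 := hge (u - v)
  have hsymm : v ⬝ᵥ (T *ᵥ u) = u ⬝ᵥ (T *ᵥ v) := by
    conv_rhs => rw [Matrix.dotProduct_mulVec, ← Matrix.mulVec_transpose, hT, dotProduct_comm]
  simp only [Matrix.mulVec_add, Matrix.mulVec_sub, dotProduct_add, dotProduct_sub, add_dotProduct,
    sub_dotProduct] at h1 h2
  have hvu : v ⬝ᵥ (T *ᵥ u) = v ⬝ᵥ v := by rw [← hv]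
  have hc : u ⬝ᵥ v = v ⬝ᵥ u := dotProduct_comm _ _
  have huu : u ⬝ᵥ u = 1 := by simp [hu]
  have hvv : v ⬝ᵥ v = ∑ y, (T x y) ^ 2 := by
    rw [hv, hu, Matrix.mulVec_single_one]
    simp only [dotProduct, Matrix.col_apply]
    refine Finset.sum_congr rfl fun y _ => ?_
    have : T y x = T x y := by
      conv_lhs => rw [← hT]
      rfl
    rw [this]; ring
  rw [← hvv]
  linarith

/-- abstract flag data -/
structure Flag (n : ℕ) (P : ℕ → Matrix X X ℝ) : Prop where
  pr : ∀ j, IsPr (P j)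
  mono : ∀ j k, j ≤ k → P k * P j = P j
  zero : P 0 = 0
  top : P (n + 1) = 1

/-- the degree operator -/
noncomputable def degOp (n : ℕ) (P : ℕ → Matrix X X ℝ) : Matrix X X ℝ :=
  ∑ j ∈ Finset.range n, (1 - P (j + 1))

theorem degOp_symm {n : ℕ} {P : ℕ → Matrix X X ℝ} (hF : Flag n P) : (degOp n P)ᵀ = degOp n P := by
  unfold degOp
  rw [Matrix.transpose_sum]
  exact Finset.sum_congr rfl fun j _ => by simp [(hF.pr (j+1)).1]

theorem star_bound {n : ℕ} {P : ℕ → Matrix X X ℝ} (hF : Flag n P) (δ : X → ℝ)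
    (hδ : ∀ x, δ x * δ x = 1)
    (hband : ∀ j, P (j + 1) * (diagonal δ * P j) = diagonal δ * P j) (x : X) :
    ∑ y, (degOp n P x y) ^ 2 * (2 - 2 * δ x * δ y) ≤ 1 := by
  set D : Matrix X X ℝ := diagonal δ with hD
  have hDt : Dᵀ = D := by simp [hD]
  have hDD : D * D = 1 := by
    rw [hD, diagonal_mul_diagonal]
    simp [hδ]
  set S := degOp n P with hS
  set T : Matrix X X ℝ := D * S * D - S with hTdef
  have hSt : Sᵀ = S := degOp_symm hF
  have hT : Tᵀ = T := by
    simp [hTdef, Matrix.transpose_mul, hDt, hSt, Matrix.mul_assoc]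
  -- T = ∑ (P (j+1) - D P (j+1) D)
  have hT2 : T = ∑ j ∈ Finset.range n, (P (j + 1) - D * P (j + 1) * D) := by
    rw [hTdef, hS, degOp, Finset.mul_sum, Finset.sum_mul, ← Finset.sum_sub_distrib]
    refine Finset.sum_congr rfl fun j _ => ?_
    rw [mul_sub, sub_mul, mul_one, hDD]; abel
  have hQ : ∀ v : X → ℝ, v ⬝ᵥ (T *ᵥ v) =
      ∑ j ∈ Finset.range n, (v ⬝ᵥ (P (j + 1) *ᵥ v)) - ∑ j ∈ Finset.range n, (v ⬝ᵥ ((D * P (j + 1) * D) *ᵥ v)) := by
    intro v
    rw [hT2, Matrix.sum_mulVec, dotProduct_sum, ← Finset.sum_sub_distrib]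
    refine Finset.sum_congr rfl fun j _ => ?_
    rw [Matrix.sub_mulVec, dotProduct_sub]
  have hcmp1 : ∀ (j : ℕ) (v : X → ℝ), v ⬝ᵥ ((D * P j * D) *ᵥ v) ≤ v ⬝ᵥ (P (j + 1) *ᵥ v) := by
    intro j v
    refine IsPr.quad_le ((hF.pr j).conj hDt hDD) (hF.pr (j+1)) ?_ v
    rw [← Matrix.mul_assoc, hband j]
  have hcmp2 : ∀ (j : ℕ) (v : X → ℝ), v ⬝ᵥ (P j *ᵥ v) ≤ v ⬝ᵥ ((D * P (j + 1) * D) *ᵥ v) := by
    intro j v
    refine IsPr.quad_le (hF.pr j) ((hF.pr (j+1)).conj hDt hDD) ?_ v
    calc D * P (j+1) * D * P j = D * (P (j+1) * (D * P j)) := by simp [Matrix.mul_assoc]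
      _ = D * (D * P j) := by rw [hband j]
      _ = P j := by rw [← Matrix.mul_assoc, hDD, one_mul]
  have hle : ∀ v : X → ℝ, v ⬝ᵥ (T *ᵥ v) ≤ v ⬝ᵥ v := by
    intro v
    rw [hQ]
    have h1 : ∑ j ∈ Finset.range n, (v ⬝ᵥ (P (j + 1) *ᵥ v)) ≤
        ∑ j ∈ Finset.range n, (v ⬝ᵥ ((D * P (j + 1 + 1) * D) *ᵥ v)) :=
      Finset.sum_le_sum fun j _ => hcmp2 (j+1) v
    have h2 : ∑ j ∈ Finset.range n, (v ⬝ᵥ ((D * P (j + 1 + 1) * D) *ᵥ v)) + v ⬝ᵥ ((D * P (0 + 1) * D) *ᵥ v)
        = ∑ j ∈ Finset.range n, (v ⬝ᵥ ((D * P (j + 1) * D) *ᵥ v)) + v ⬝ᵥ ((D * P (n + 1) * D) *ᵥ v) := by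
      rw [← Finset.sum_range_succ' (fun j => v ⬝ᵥ ((D * P (j + 1) * D) *ᵥ v)) n,
        Finset.sum_range_succ]
    have h3 : v ⬝ᵥ ((D * P (n + 1) * D) *ᵥ v) = v ⬝ᵥ v := by
      rw [hF.top, mul_one, hDD, Matrix.one_mulVec]
    have h4 := ((hF.pr (0+1)).conj hDt hDD).quad_nonneg v
    linarith
  have hge : ∀ v : X → ℝ, -(v ⬝ᵥ v) ≤ v ⬝ᵥ (T *ᵥ v) := by
    intro v
    rw [hQ]
    have h1 : ∑ j ∈ Finset.range n, (v ⬝ᵥ ((D * P (j + 1) * D) *ᵥ v)) ≤
        ∑ j ∈ Finset.range n, (v ⬝ᵥ (P (j + 1 + 1) *ᵥ v)) :=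
      Finset.sum_le_sum fun j _ => hcmp1 (j+1) v
    have h2 : ∑ j ∈ Finset.range n, (v ⬝ᵥ (P (j + 1 + 1) *ᵥ v)) + v ⬝ᵥ (P (0 + 1) *ᵥ v)
        = ∑ j ∈ Finset.range n, (v ⬝ᵥ (P (j + 1) *ᵥ v)) + v ⬝ᵥ (P (n + 1) *ᵥ v) := by
      rw [← Finset.sum_range_succ' (fun j => v ⬝ᵥ (P (j + 1) *ᵥ v)) n,
        Finset.sum_range_succ]
    have h3 : v ⬝ᵥ (P (n + 1) *ᵥ v) = v ⬝ᵥ v := by
      rw [hF.top, Matrix.one_mulVec]
    have h4 := (hF.pr (0+1)).quad_nonneg v
    linarith
  have := col_sq_le hT hle hge x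
  refine le_trans (le_of_eq ?_) this
  refine Finset.sum_congr rfl fun y _ => ?_
  have : T x y = (δ x * δ y - 1) * S x y := by
    rw [hTdef, Matrix.sub_apply, hD, Matrix.mul_diagonal, Matrix.diagonal_mul]; ring
  rw [this]
  have e1 := hδ x
  have e2 := hδ y
  have : (δ x * δ y - 1) ^ 2 = 2 - 2 * δ x * δ y := by
    calc (δ x * δ y - 1) ^ 2 = (δ x * δ x) * (δ y * δ y) - 2 * δ x * δ y + 1 := by ring
      _ = _ := by rw [e1, e2]; ring
  rw [mul_pow, this]; ring

/-- sum of squares of the entries weighted by `1 - h x h y`. -/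
theorem sum_sq_eq {n : ℕ} {P : ℕ → Matrix X X ℝ} (hF : Flag n P) (h : X → ℝ)
    (hh : ∀ x, h x * h x = 1) :
    ∑ x, ∑ y, (degOp n P x y) ^ 2 * (1 - h x * h y) =
      ∑ j ∈ Finset.range n, ∑ l ∈ Finset.range n,
        ((P (j + 1) * P (l + 1)).trace - (P (j + 1) * (diagonal h * P (l + 1) * diagonal h)).trace) := by
  set H : Matrix X X ℝ := diagonal h with hH
  have hHt : Hᵀ = H := by simp [hH]
  have hHH : H * H = 1 := by
    rw [hH, diagonal_mul_diagonal]
    simp [hh]
  set S := degOp n P with hS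
  have hSt : Sᵀ = S := degOp_symm hF
  have hsw : ∀ x y, S y x = S x y := fun x y => by
    conv_lhs => rw [← hSt]
    rfl
  have h1 : ∑ x, ∑ y, (S x y) ^ 2 * (1 - h x * h y) = (S * S).trace - (S * (H * S * H)).trace := by
    have htr : ∀ A B : Matrix X X ℝ, (A * B).trace = ∑ x, ∑ y, A x y * B y x := by
      intro A B
      simp [Matrix.trace, Matrix.mul_apply]
    rw [htr, htr, ← Finset.sum_sub_distrib]
    refine Finset.sum_congr rfl fun x _ => ?_
    rw [← Finset.sum_sub_distrib]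
    refine Finset.sum_congr rfl fun y _ => ?_
    rw [hH, Matrix.mul_diagonal, Matrix.diagonal_mul, hsw]
    ring
  rw [h1]
  have h2 : (S * S).trace = ∑ j ∈ Finset.range n, ∑ l ∈ Finset.range n,
      ((1 - P (j+1)) * (1 - P (l+1))).trace := by
    rw [hS, degOp, Finset.sum_mul, Matrix.trace_sum]
    refine Finset.sum_congr rfl fun j _ => ?_
    rw [Finset.mul_sum, Matrix.trace_sum]
  have h3 : (S * (H * S * H)).trace = ∑ j ∈ Finset.range n, ∑ l ∈ Finset.range n,
      ((1 - P (j+1)) * (H * (1 - P (l+1)) * H)).trace := by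
    rw [hS, degOp, Finset.mul_sum, Finset.sum_mul, Finset.sum_mul, Matrix.trace_sum]
    refine Finset.sum_congr rfl fun j _ => ?_
    rw [Finset.mul_sum, Matrix.trace_sum]
  rw [h2, h3, ← Finset.sum_sub_distrib]
  refine Finset.sum_congr rfl fun j _ => ?_
  rw [← Finset.sum_sub_distrib]
  refine Finset.sum_congr rfl fun l _ => ?_
  have e1 : (1 - P (j+1)) * (1 - P (l+1)) = 1 - P (j+1) - P (l+1) + P (j+1) * P (l+1) := by
    rw [sub_mul, mul_sub, mul_sub]; simp only [one_mul, mul_one]; abel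
  have e2 : (1 - P (j+1)) * (H * (1 - P (l+1)) * H) =
      1 - P (j+1) - H * P (l+1) * H + P (j+1) * (H * P (l+1) * H) := by
    have e0 : H * (1 - P (l+1)) * H = 1 - H * P (l+1) * H := by
      rw [mul_sub, sub_mul, mul_one, hHH]
    rw [e0, sub_mul, mul_sub, mul_sub]
    simp only [one_mul, mul_one]; abel
  have e3 : (H * P (l+1) * H).trace = (P (l+1)).trace := by
    rw [Matrix.trace_mul_comm, ← Matrix.mul_assoc, hHH, one_mul]
  rw [e1, e2]
  simp only [Matrix.trace_add, Matrix.trace_sub, e3]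
  ring

theorem term_bound_aux {P : ℕ → Matrix X X ℝ} {n : ℕ} (hF : Flag n P) (h : X → ℝ)
    (hh : ∀ x, h x * h x = 1) (j l k : ℕ) (hkj : k ≤ j)
    (horth : P k * (diagonal h * P l * diagonal h) = 0) :
    (P k).trace ≤ (P j).trace - (P j * (diagonal h * P l * diagonal h)).trace := by
  set H : Matrix X X ℝ := diagonal h with hH
  have hHt : Hᵀ = H := by simp [hH]
  have hHH : H * H = 1 := by
    rw [hH, diagonal_mul_diagonal]
    simp [hh]
  have hQ : IsPr (H * P l * H) := (hF.pr l).conj hHt hHH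
  have h1 := IsPr.trace_mul_nonneg (IsPr.sub (hF.pr k) (hF.pr j) (hF.mono k j hkj)) hQ.one_sub
  rw [mul_sub, mul_one, sub_mul, horth, sub_zero, Matrix.trace_sub, Matrix.trace_sub] at h1
  linarith

theorem term_bound {P : ℕ → Matrix X X ℝ} {n d : ℕ} (hF : Flag n P) (h : X → ℝ)
    (hh : ∀ x, h x * h x = 1)
    (horth : ∀ j l, j + l + d ≤ n + 1 → 1 ≤ j → 1 ≤ l → P j * (diagonal h * P l) = 0)
    (a b : ℕ) (ha : 1 ≤ a) (hb : 1 ≤ b) :
    (P (min (min a b) (n + 1 - d - max a b))).trace ≤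
      (P a * P b).trace - (P a * (diagonal h * P b * diagonal h)).trace := by
  set H : Matrix X X ℝ := diagonal h with hH
  have hHt : Hᵀ = H := by simp [hH]
  have horth' : ∀ k l, (k = 0 ∨ (k + l + d ≤ n + 1)) → 1 ≤ l → P k * (H * P l * H) = 0 := by
    intro k l hk hl
    rcases Nat.eq_zero_or_pos k with h0 | h0
    · rw [h0, hF.zero, zero_mul]
    · rcases hk with hk | hk
      · omega
      · rw [← Matrix.mul_assoc, horth k l hk h0 hl, zero_mul]
  rcases le_total a b with hab | hab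
  · rw [min_eq_left hab, max_eq_right hab]
    have h1 : (P a * P b).trace = (P a).trace := by
      rw [Matrix.trace_mul_comm, hF.mono a b hab]
    rw [h1]
    refine term_bound_aux hF h hh a b _ (min_le_left _ _) ?_
    apply horth' _ _ _ hb
    by_cases hc : n + 1 - d - b = 0
    · left; rw [hc]; simp
    · right
      have := min_le_right a (n + 1 - d - b)
      omega
  · rw [min_eq_right hab, max_eq_left hab]
    have h1 : (P a * P b).trace = (P b).trace := by
      rw [hF.mono b a hab]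
    have h2 : (P a * (H * P b * H)).trace = (P b * (H * P a * H)).trace := by
      calc (P a * (H * P b * H)).trace = ((P a * (H * P b)) * H).trace := by simp [Matrix.mul_assoc]
        _ = (H * (P a * (H * P b))).trace := by rw [Matrix.trace_mul_comm]
        _ = ((H * P a * H) * P b).trace := by simp [Matrix.mul_assoc]
        _ = _ := by rw [Matrix.trace_mul_comm]
    rw [h1, h2]
    refine term_bound_aux hF h hh b a _ (min_le_left _ _) ?_
    apply horth' _ _ _ ha
    by_cases hc : n + 1 - d - a = 0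
    · left; rw [hc]; simp
    · right
      have := min_le_right b (n + 1 - d - a)
      omega

end Abs

section Cube
variable {n : ℕ}

/-- character -/
noncomputable def chi (S : Finset (Fin n)) (x : Fin n → Bool) : ℝ := ∏ j ∈ S, (if x j then (1 : ℝ) else -1)

/-- flip coordinate `i` -/
def flip (i : Fin n) (x : Fin n → Bool) : Fin n → Bool := Function.update x i (!(x i))

theorem flip_flip (i : Fin n) (x : Fin n → Bool) : flip i (flip i x) = x := by
  unfold flip
  simp

theorem flip_same (i : Fin n) (x : Fin n → Bool) : flip i x i = !(x i) := by simp [flip]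

theorem flip_ne {i j : Fin n} (h : j ≠ i) (x : Fin n → Bool) : flip i x j = x j := by
  simp [flip, Function.update_of_ne h]

theorem chi_flip_not_mem {i : Fin n} {S : Finset (Fin n)} (h : i ∉ S) (x : Fin n → Bool) :
    chi S (flip i x) = chi S x := by
  unfold chi
  refine Finset.prod_congr rfl fun j hj => ?_
  rw [flip_ne (by rintro rfl; exact h hj)]

theorem chi_flip_mem {i : Fin n} {S : Finset (Fin n)} (h : i ∈ S) (x : Fin n → Bool) :
    chi S (flip i x) = - chi S x := by
  unfold chi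
  rw [← Finset.mul_prod_erase S _ h, ← Finset.mul_prod_erase S _ h, flip_same]
  have : ∏ j ∈ S.erase i, (if flip i x j = true then (1:ℝ) else -1) =
      ∏ j ∈ S.erase i, (if x j = true then (1:ℝ) else -1) := by
    refine Finset.prod_congr rfl fun j hj => ?_
    rw [flip_ne (Finset.ne_of_mem_erase hj)]
  rw [this]
  cases x i <;> simp

theorem chi_sq (S : Finset (Fin n)) (x : Fin n → Bool) : chi S x * chi S x = 1 := by
  unfold chi
  rw [← Finset.prod_mul_distrib]
  exact Finset.prod_eq_one fun j _ => by split_ifs <;> norm_num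

theorem sum_flip (i : Fin n) (F : (Fin n → Bool) → ℝ) : ∑ x, F (flip i x) = ∑ x, F x :=
  (Equiv.sum_comp (⟨flip i, flip i, flip_flip i, flip_flip i⟩ : (Fin n → Bool) ≃ (Fin n → Bool)) F)

theorem sum_eq_zero_of_flip (i : Fin n) (F : (Fin n → Bool) → ℝ) (h : ∀ x, F (flip i x) = - F x) :
    ∑ x, F x = 0 := by
  have := sum_flip i F
  simp only [h, Finset.sum_neg_distrib] at this
  linarith

theorem chi_orth {S T : Finset (Fin n)} (h : S ≠ T) : ∑ x, chi S x * chi T x = 0 := by
  obtain ⟨i, hi⟩ : ∃ i, ¬ (i ∈ S ↔ i ∈ T) := by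
    by_contra hc
    push Not at hc
    exact h (Finset.ext hc)
  apply sum_eq_zero_of_flip i
  intro x
  by_cases h1 : i ∈ S
  · have h2 : i ∉ T := fun h2 => hi ⟨fun _ => h2, fun _ => h1⟩
    rw [chi_flip_mem h1, chi_flip_not_mem h2]; ring
  · have h2 : i ∈ T := by
      by_contra h2
      exact hi ⟨fun h => absurd h h1, fun h => absurd h h2⟩
    rw [chi_flip_not_mem h1, chi_flip_mem h2]; ring

/-- weighted character -/
noncomputable def wchi (r : (Fin n → Bool) → ℝ) (S : Finset (Fin n)) : (Fin n → Bool) → ℝ :=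
  fun x => r x * chi S x

theorem wchi_linInd (r : (Fin n → Bool) → ℝ) (hr : ∀ x, r x ≠ 0) :
    LinearIndependent ℝ (wchi r) := by
  rw [Fintype.linearIndependent_iff]
  intro g hg T
  have h1 : ∀ x, ∑ S, g S * chi S x = 0 := by
    intro x
    have := congrFun hg x
    simp only [Finset.sum_apply, Pi.smul_apply, smul_eq_mul, Pi.zero_apply, wchi] at this
    have h2 : r x * ∑ S, g S * chi S x = 0 := by
      rw [Finset.mul_sum, ← this]
      exact Finset.sum_congr rfl fun S _ => by ring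
    exact (mul_eq_zero.mp h2).resolve_left (hr x)
  have h2 : ∑ x, (∑ S, g S * chi S x) * chi T x = 0 := by simp [h1]
  have h3 : ∑ x, (∑ S, g S * chi S x) * chi T x = g T * 2 ^ n := by
    simp only [Finset.sum_mul]
    rw [Finset.sum_comm, Finset.sum_eq_single T]
    · have : ∀ x : Fin n → Bool, g T * chi T x * chi T x = g T := fun x => by
        rw [mul_assoc, chi_sq, mul_one]
      simp only [this, Finset.sum_const, Finset.card_univ, Fintype.card_pi, Fintype.card_bool,
        Finset.prod_const, Fintype.card_fin, nsmul_eq_mul]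
      push_cast; ring
    · intro S _ hST
      have : ∀ x : Fin n → Bool, g S * chi S x * chi T x = g S * (chi S x * chi T x) := fun x => by ring
      simp only [this]
      rw [← Finset.mul_sum, chi_orth hST, mul_zero]
    · simp
  rw [h3] at h2
  exact (mul_eq_zero.mp h2).resolve_right (by positivity)

/-- weighted low degree space (degree `< j`) -/
noncomputable def lowSpace (r : (Fin n → Bool) → ℝ) (j : ℕ) : Submodule ℝ ((Fin n → Bool) → ℝ) :=
  Submodule.span ℝ (Set.range fun S : {S : Finset (Fin n) // S.card < j} => wchi r S.1)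

theorem wchi_mem {r : (Fin n → Bool) → ℝ} {j : ℕ} {S : Finset (Fin n)} (h : S.card < j) :
    wchi r S ∈ lowSpace r j :=
  Submodule.subset_span ⟨⟨S, h⟩, rfl⟩

theorem lowSpace_mono (r : (Fin n → Bool) → ℝ) {j k : ℕ} (h : j ≤ k) : lowSpace r j ≤ lowSpace r k := by
  apply Submodule.span_le.mpr
  rintro _ ⟨⟨S, hS⟩, rfl⟩
  exact wchi_mem (lt_of_lt_of_le hS h)

/-- dimension -/
def dimN (n j : ℕ) : ℕ := ∑ i ∈ Finset.range j, n.choose i

theorem card_low (j : ℕ) : Fintype.card {S : Finset (Fin n) // S.card < j} = dimN n j := by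
  rw [Fintype.card_subtype, dimN]
  rw [Finset.card_eq_sum_card_fiberwise (f := Finset.card) (t := Finset.range j)]
  · refine Finset.sum_congr rfl fun i hi => ?_
    have : (Finset.univ.filter (fun S : Finset (Fin n) => S.card < j)).filter (fun S => S.card = i)
        = Finset.powersetCard i Finset.univ := by
      ext S
      simp only [Finset.mem_filter, Finset.mem_univ, true_and, Finset.mem_powersetCard,
        Finset.subset_univ]
      constructor
      · rintro ⟨_, h⟩; exact h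
      · intro h; exact ⟨by rw [h]; exact Finset.mem_range.mp hi, h⟩
    rw [this, Finset.card_powersetCard, Finset.card_univ, Fintype.card_fin]
  · intro S hS
    simp only [Finset.coe_filter, Finset.mem_univ, true_and, Set.mem_ofPred_eq] at hS
    simpa using hS

theorem finrank_lowSpace (r : (Fin n → Bool) → ℝ) (hr : ∀ x, r x ≠ 0) (j : ℕ) :
    Module.finrank ℝ (lowSpace r j) = dimN n j := by
  rw [lowSpace, finrank_span_eq_card, card_low]
  exact (wchi_linInd r hr).comp _ Subtype.val_injective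

theorem lowSpace_top (r : (Fin n → Bool) → ℝ) (hr : ∀ x, r x ≠ 0) : lowSpace r (n + 1) = ⊤ := by
  apply Submodule.eq_top_of_finrank_eq
  rw [finrank_lowSpace r hr, dimN, Nat.sum_range_choose]
  simp

theorem lowSpace_zero (r : (Fin n → Bool) → ℝ) : lowSpace r 0 = ⊥ := by
  rw [lowSpace, Submodule.span_eq_bot]
  rintro _ ⟨⟨S, hS⟩, rfl⟩
  omega

theorem lowSpace_band (r : (Fin n → Bool) → ℝ) (i : Fin n) (j : ℕ) (v : (Fin n → Bool) → ℝ)
    (hv : v ∈ lowSpace r j) :
    (Matrix.diagonal (fun x : Fin n → Bool => if x i then (1:ℝ) else -1)) *ᵥ v ∈ lowSpace r (j + 1) := by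
  rw [lowSpace] at hv
  induction hv using Submodule.span_induction with
  | mem v hv =>
    obtain ⟨⟨S, hS⟩, rfl⟩ := hv
    have hS' : S.card < j := hS
    by_cases hi : i ∈ S
    · have : (Matrix.diagonal (fun x : Fin n → Bool => if x i then (1:ℝ) else -1)) *ᵥ (wchi r S)
          = wchi r (S.erase i) := by
        ext x
        rw [Matrix.mulVec_diagonal, wchi, wchi, chi, chi, ← Finset.mul_prod_erase S _ hi]
        cases x i <;> simp
      show (Matrix.diagonal (fun x : Fin n → Bool => if x i then (1:ℝ) else -1)) *ᵥ (wchi r S) ∈ _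
      rw [this]
      exact wchi_mem (by have := Finset.card_erase_le (s := S) (a := i); omega)
    · have : (Matrix.diagonal (fun x : Fin n → Bool => if x i then (1:ℝ) else -1)) *ᵥ (wchi r S)
          = wchi r (insert i S) := by
        ext x
        rw [Matrix.mulVec_diagonal, wchi, wchi, chi, chi, Finset.prod_insert hi]
        ring
      show (Matrix.diagonal (fun x : Fin n → Bool => if x i then (1:ℝ) else -1)) *ᵥ (wchi r S) ∈ _
      rw [this]
      exact wchi_mem (by rw [Finset.card_insert_of_notMem hi]; omega)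
  | zero => rw [Matrix.mulVec_zero]; exact Submodule.zero_mem _
  | add u v _ _ hu hv => rw [Matrix.mulVec_add]; exact Submodule.add_mem _ hu hv
  | smul a v _ hv => rw [Matrix.mulVec_smul]; exact Submodule.smul_mem _ _ hv

/-- orthogonality: `χ·p` is orthogonal to products of low degree functions -/
theorem orth_base {d : ℕ} (c : Finset (Fin n) → ℝ) (hc : ∀ S, d < S.card → c S = 0)
    (S T : Finset (Fin n)) (h : S.card + T.card + d < n) :
    ∑ x : Fin n → Bool, chi Finset.univ x * (∑ U, c U * chi U x) * chi S x * chi T x = 0 := by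
  have h1 : ∀ x : Fin n → Bool, chi Finset.univ x * (∑ U, c U * chi U x) * chi S x * chi T x =
      ∑ U, c U * (chi Finset.univ x * chi U x * chi S x * chi T x) := by
    intro x
    rw [Finset.mul_sum, Finset.sum_mul, Finset.sum_mul]
    exact Finset.sum_congr rfl fun U _ => by ring
  simp only [h1]
  rw [Finset.sum_comm]
  refine Finset.sum_eq_zero fun U _ => ?_
  rw [← Finset.mul_sum]
  by_cases hU : d < U.card
  · rw [hc U hU, zero_mul]
  · push Not at hU
    have hcard : (U ∪ S ∪ T).card < n := by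
      have h2 := Finset.card_union_le (U ∪ S) T
      have h3 := Finset.card_union_le U S
      omega
    obtain ⟨i, hi⟩ : ∃ i : Fin n, i ∉ U ∪ S ∪ T := by
      by_contra hcon
      push Not at hcon
      have : U ∪ S ∪ T = Finset.univ := Finset.eq_univ_iff_forall.mpr hcon
      rw [this, Finset.card_univ, Fintype.card_fin] at hcard
      omega
    simp only [Finset.mem_union, not_or] at hi
    rw [sum_eq_zero_of_flip i, mul_zero]
    intro x
    rw [chi_flip_mem (Finset.mem_univ i), chi_flip_not_mem hi.1.1, chi_flip_not_mem hi.1.2,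
      chi_flip_not_mem hi.2]
    ring

theorem orth_space {d : ℕ} (c : Finset (Fin n) → ℝ) (hc : ∀ S, d < S.card → c S = 0)
    (r h : (Fin n → Bool) → ℝ) (hrh : ∀ x, r x * r x * h x = chi Finset.univ x * (∑ U, c U * chi U x))
    (j l : ℕ) (hj : 1 ≤ j) (hl : 1 ≤ l) (hjl : j + l + d ≤ n + 1)
    (u v : (Fin n → Bool) → ℝ) (hu : u ∈ lowSpace r j) (hv : v ∈ lowSpace r l) :
    u ⬝ᵥ (Matrix.diagonal h *ᵥ v) = 0 := by
  rw [lowSpace] at hu hv
  induction hu using Submodule.span_induction with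
  | mem u hu =>
    obtain ⟨⟨S, hS⟩, rfl⟩ := hu
    induction hv using Submodule.span_induction with
    | mem v hv =>
      obtain ⟨⟨T, hT⟩, rfl⟩ := hv
      rw [← orth_base c hc S T (by omega)]
      simp only [dotProduct]
      refine Finset.sum_congr rfl fun x _ => ?_
      rw [Matrix.mulVec_diagonal, wchi, wchi, ← hrh]
      ring
    | zero => simp
    | add a b _ _ ha hb => rw [Matrix.mulVec_add, dotProduct_add, ha, hb, add_zero]
    | smul a v _ hv => rw [Matrix.mulVec_smul, dotProduct_smul, hv, smul_zero]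
  | zero => simp
  | add a b _ _ ha hb => rw [add_dotProduct, ha, hb, add_zero]
  | smul a v _ hv => rw [smul_dotProduct, hv, smul_zero]

theorem mat_ext {X : Type*} [Fintype X] [DecidableEq X] {A B : Matrix X X ℝ}
    (h : ∀ v : X → ℝ, A *ᵥ v = B *ᵥ v) : A = B := by
  ext x y
  have := congrFun (h (Pi.single y 1)) x
  simpa using this

/-- the flag of projections -/
theorem exists_flag {d : ℕ} (c : Finset (Fin n) → ℝ) (hc : ∀ S, d < S.card → c S = 0)
    (r h : (Fin n → Bool) → ℝ) (hr : ∀ x, r x ≠ 0)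
    (hrh : ∀ x, r x * r x * h x = chi Finset.univ x * (∑ U, c U * chi U x)) :
    ∃ P : ℕ → Matrix (Fin n → Bool) (Fin n → Bool) ℝ, Flag n P ∧
      (∀ j, (P j).trace = (dimN n j : ℝ)) ∧
      (∀ (i : Fin n) (j : ℕ), P (j + 1) * (Matrix.diagonal (fun x : Fin n → Bool => if x i then (1:ℝ) else -1) * P j)
        = Matrix.diagonal (fun x : Fin n → Bool => if x i then (1:ℝ) else -1) * P j) ∧
      (∀ j l, j + l + d ≤ n + 1 → 1 ≤ j → 1 ≤ l → P j * (diagonal h * P l) = 0) := by
  choose P h1 h2 h3 h4 h5 using fun j : ℕ => exists_proj (lowSpace r j)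
  refine ⟨P, ⟨fun j => ⟨h1 j, h2 j⟩, ?_, ?_, ?_⟩, ?_, ?_, ?_⟩
  · intro j k hjk
    apply mat_ext
    intro v
    rw [← Matrix.mulVec_mulVec]
    exact h3 k _ (lowSpace_mono r hjk (h4 j v))
  · apply mat_ext
    intro v
    have := h4 0 v
    rw [lowSpace_zero, Submodule.mem_bot] at this
    rw [this, Matrix.zero_mulVec]
  · apply mat_ext
    intro v
    rw [Matrix.one_mulVec]
    apply h3
    rw [lowSpace_top r hr]
    trivial
  · intro j
    rw [h5, finrank_lowSpace r hr]
  · intro i j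
    apply mat_ext
    intro v
    rw [← Matrix.mulVec_mulVec, ← Matrix.mulVec_mulVec]
    exact h3 _ _ (lowSpace_band r i j _ (h4 j v))
  · intro j l hjl hj hl
    have key : ∀ u v : (Fin n → Bool) → ℝ, u ⬝ᵥ ((P j * (diagonal h * P l)) *ᵥ v) = 0 := by
      intro u v
      rw [← Matrix.mulVec_mulVec, ← Matrix.mulVec_mulVec, Matrix.dotProduct_mulVec,
        ← Matrix.mulVec_transpose, h1]
      exact orth_space c hc r h hrh j l hj hl hjl _ _ (h4 j u) (h4 l v)
    ext x y
    have := key (Pi.single x 1) (Pi.single y 1)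
    simpa using this

end Cube


section Binom

theorem choose_sum_succ (n : ℕ) (g : ℕ → ℝ) :
    ∑ i ∈ Finset.range (n + 2), ((n + 1).choose i : ℝ) * g i =
      ∑ i ∈ Finset.range (n + 1), (n.choose i : ℝ) * (g i + g (i + 1)) := by
  rw [Finset.sum_range_succ']
  have h1 : ∀ i, ((n + 1).choose (i + 1) : ℝ) * g (i + 1) =
      (n.choose i : ℝ) * g (i + 1) + (n.choose (i + 1) : ℝ) * g (i + 1) := by
    intro i
    rw [Nat.choose_succ_succ]; push_cast; ring
  simp only [h1, Finset.sum_add_distrib, mul_add]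
  have h2 : ∑ i ∈ Finset.range (n + 1), (n.choose (i + 1) : ℝ) * g (i + 1) + (n.choose 0 : ℝ) * g 0 =
      ∑ i ∈ Finset.range (n + 1), (n.choose i : ℝ) * g i := by
    rw [← Finset.sum_range_succ' (fun i => (n.choose i : ℝ) * g i) (n + 1), Finset.sum_range_succ]
    simp
  simp only [Nat.choose_zero_right, Nat.cast_one, one_mul] at h2 ⊢
  linarith

theorem sum_choose_real (n : ℕ) : ∑ i ∈ Finset.range (n + 1), (n.choose i : ℝ) = 2 ^ n := by
  have := Nat.sum_range_choose n
  exact_mod_cast this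

theorem sum_choose_sq (n : ℕ) :
    ∑ i ∈ Finset.range (n + 1), (n.choose i : ℝ) * ((n : ℝ) - 2 * (i : ℝ)) ^ 2 = (n : ℝ) * 2 ^ n := by
  induction n with
  | zero => simp
  | succ n ih =>
    have hcs := choose_sum_succ n (fun i => (((n + 1 : ℕ) : ℝ) - 2 * (i : ℝ)) ^ 2)
    rw [show n + 1 + 1 = n + 2 from rfl, hcs]
    have : ∀ i : ℕ, (n.choose i : ℝ) * (((((n + 1 : ℕ) : ℝ)) - 2 * (i : ℝ)) ^ 2 +
        ((((n + 1 : ℕ) : ℝ)) - 2 * ((i + 1 : ℕ) : ℝ)) ^ 2) =
        2 * ((n.choose i : ℝ) * ((n : ℝ) - 2 * i) ^ 2) + 2 * (n.choose i : ℝ) := by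
      intro i; push_cast; ring
    simp only [this, Finset.sum_add_distrib, ← Finset.mul_sum, ih, sum_choose_real]
    push_cast; ring

theorem sum_choose_abs (n : ℕ) (hn : 1 ≤ n) :
    ∑ i ∈ Finset.range (n + 1), (n.choose i : ℝ) * |(n : ℝ) - 2 * i| ≤ Real.sqrt n * 2 ^ n := by
  have hs : 0 < Real.sqrt n := Real.sqrt_pos.mpr (by exact_mod_cast hn)
  have hss : Real.sqrt n * Real.sqrt n = n := Real.mul_self_sqrt (by positivity)
  have h1 : ∀ i : ℕ, (n.choose i : ℝ) * |(n : ℝ) - 2 * i| ≤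
      ((n.choose i : ℝ) * ((n : ℝ) - 2 * i) ^ 2) * (1 / (2 * Real.sqrt n)) +
        (n.choose i : ℝ) * (Real.sqrt n / 2) := by
    intro i
    have hc : (0 : ℝ) ≤ (n.choose i : ℝ) := by positivity
    have h2 : |(n : ℝ) - 2 * i| ≤ ((n : ℝ) - 2 * i) ^ 2 * (1 / (2 * Real.sqrt n)) + Real.sqrt n / 2 := by
      have h3 : 0 ≤ (|(n : ℝ) - 2 * i| - Real.sqrt n) ^ 2 := sq_nonneg _
      have h4 : |(n : ℝ) - 2 * i| ^ 2 = ((n : ℝ) - 2 * i) ^ 2 := sq_abs _
      have h5 : 2 * |(n : ℝ) - 2 * i| * Real.sqrt n ≤ ((n : ℝ) - 2 * i) ^ 2 + Real.sqrt n * Real.sqrt n := by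
        nlinarith
      have h6 : ((n : ℝ) - 2 * i) ^ 2 * (1 / (2 * Real.sqrt n)) + Real.sqrt n / 2 =
          (((n : ℝ) - 2 * i) ^ 2 + Real.sqrt n * Real.sqrt n) / (2 * Real.sqrt n) := by
        field_simp
      rw [h6, le_div_iff₀ (by positivity)]
      nlinarith
    calc (n.choose i : ℝ) * |(n : ℝ) - 2 * i| ≤ (n.choose i : ℝ) *
          (((n : ℝ) - 2 * i) ^ 2 * (1 / (2 * Real.sqrt n)) + Real.sqrt n / 2) :=
          mul_le_mul_of_nonneg_left h2 hc
      _ = _ := by ring
  refine (Finset.sum_le_sum fun i _ => h1 i).trans ?_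
  rw [Finset.sum_add_distrib, ← Finset.sum_mul, ← Finset.sum_mul, sum_choose_sq, sum_choose_real]
  have : (n : ℝ) * 2 ^ n * (1 / (2 * Real.sqrt n)) = Real.sqrt n / 2 * 2 ^ n := by
    rw [mul_one_div, div_eq_iff (by positivity)]
    calc (n : ℝ) * 2 ^ n = (Real.sqrt n * Real.sqrt n) * 2 ^ n := by rw [hss]
      _ = _ := by ring
  rw [this]
  apply le_of_eq; ring

theorem phi_bound (n d i : ℕ) (hi : i ≤ n) :
    ((n : ℝ) - 2 * i) ^ 2 - 2 * d * |(n : ℝ) - 2 * i| ≤
      ((n - d - 2 * i : ℕ) : ℝ) ^ 2 + ((n - d - 2 * (n - i) : ℕ) : ℝ) ^ 2 := by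
  rcases le_total (2 * i) n with h | h
  · have hu : (0:ℝ) ≤ (n : ℝ) - 2 * i := by
      have : ((2 * i : ℕ) : ℝ) ≤ n := by exact_mod_cast h
      push_cast at this; linarith
    rw [abs_of_nonneg hu]
    have h2 : 0 ≤ ((n - d - 2 * (n - i) : ℕ) : ℝ) ^ 2 := sq_nonneg _
    rcases le_total (d + 2 * i) n with h' | h'
    · have h3 : ((n - d - 2 * i : ℕ) : ℝ) = (n : ℝ) - 2 * i - d := by
        rw [Nat.sub_sub, Nat.cast_sub h']; push_cast; ring
      rw [h3]
      nlinarith [sq_nonneg (d : ℝ)]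
    · have h3 : (n : ℝ) - 2 * i ≤ d := by
        have : (n : ℝ) ≤ ((d + 2 * i : ℕ) : ℝ) := by exact_mod_cast h'
        push_cast at this; linarith
      have h4 : 0 ≤ ((n - d - 2 * i : ℕ) : ℝ) ^ 2 := sq_nonneg _
      nlinarith
  · have hu : (n : ℝ) - 2 * i ≤ 0 := by
      have : (n : ℝ) ≤ ((2 * i : ℕ) : ℝ) := by exact_mod_cast h
      push_cast at this; linarith
    rw [abs_of_nonpos hu]
    have h2 : 0 ≤ ((n - d - 2 * i : ℕ) : ℝ) ^ 2 := sq_nonneg _
    rcases le_total (d + n) (2 * i) with h' | h'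
    · have h3 : ((n - d - 2 * (n - i) : ℕ) : ℝ) = 2 * i - n - d := by
        have h5 : n - d - 2 * (n - i) = 2 * i - (d + n) := by omega
        rw [h5, Nat.cast_sub h']; push_cast; ring
      rw [h3]
      nlinarith [sq_nonneg (d : ℝ)]
    · have h3 : 2 * (i:ℝ) - n ≤ d := by
        have : ((2 * i : ℕ) : ℝ) ≤ ((d + n : ℕ) : ℝ) := by exact_mod_cast h'
        push_cast at this; linarith
      have h4 : 0 ≤ ((n - d - 2 * (n - i) : ℕ) : ℝ) ^ 2 := sq_nonneg _
      nlinarith

theorem sum_phi (n d : ℕ) (hn : 1 ≤ n) :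
    ((n : ℝ) / 2 - d * Real.sqrt n) * 2 ^ n ≤
      ∑ i ∈ Finset.range (n + 1), (n.choose i : ℝ) * ((n - d - 2 * i : ℕ) : ℝ) ^ 2 := by
  have hrefl : ∑ i ∈ Finset.range (n + 1), (n.choose i : ℝ) * ((n - d - 2 * (n - i) : ℕ) : ℝ) ^ 2 =
      ∑ i ∈ Finset.range (n + 1), (n.choose i : ℝ) * ((n - d - 2 * i : ℕ) : ℝ) ^ 2 := by
    rw [← Finset.sum_range_reflect]
    refine Finset.sum_congr rfl fun i hi => ?_
    have hi' : i ≤ n := by have := Finset.mem_range.mp hi; omega
    have h1 : n + 1 - 1 - i = n - i := by omega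
    rw [h1, Nat.choose_symm hi', Nat.sub_sub_self hi']
  have h1 : ∑ i ∈ Finset.range (n + 1), (n.choose i : ℝ) *
      (((n : ℝ) - 2 * i) ^ 2 - 2 * d * |(n : ℝ) - 2 * i|) ≤
      ∑ i ∈ Finset.range (n + 1), (n.choose i : ℝ) *
      (((n - d - 2 * i : ℕ) : ℝ) ^ 2 + ((n - d - 2 * (n - i) : ℕ) : ℝ) ^ 2) := by
    refine Finset.sum_le_sum fun i hi => ?_
    exact mul_le_mul_of_nonneg_left (phi_bound n d i (by have := Finset.mem_range.mp hi; omega))
      (by positivity)
  have h2 : ∑ i ∈ Finset.range (n + 1), (n.choose i : ℝ) *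
      (((n : ℝ) - 2 * i) ^ 2 - 2 * d * |(n : ℝ) - 2 * i|) =
      n * 2 ^ n - 2 * d * ∑ i ∈ Finset.range (n + 1), (n.choose i : ℝ) * |(n : ℝ) - 2 * i| := by
    rw [← sum_choose_sq, Finset.mul_sum, ← Finset.sum_sub_distrib]
    exact Finset.sum_congr rfl fun i _ => by ring
  simp only [mul_add, Finset.sum_add_distrib] at h1
  rw [hrefl, h2] at h1
  have h3 := mul_le_mul_of_nonneg_left (sum_choose_abs n hn) (show (0:ℝ) ≤ 2 * d by positivity)
  nlinarith

theorem count_bound (n d : ℕ) :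
    ∑ i ∈ Finset.range (n + 1), (n.choose i) * (n - d - 2 * i) ^ 2 ≤
      ∑ j ∈ Finset.range n, ∑ l ∈ Finset.range n,
        dimN n (min (min (j + 1) (l + 1)) (n + 1 - d - max (j + 1) (l + 1))) := by
  set m : ℕ → ℕ → ℕ := fun j l => min (min (j + 1) (l + 1)) (n + 1 - d - max (j + 1) (l + 1)) with hm
  have h1 : ∀ k, ∑ i ∈ Finset.range (n + 1), (if i < k then n.choose i else 0) ≤ dimN n k := by
    intro k
    rw [← Finset.sum_filter, dimN]
    apply Finset.sum_le_sum_of_subset
    intro i hi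
    exact Finset.mem_range.mpr (Finset.mem_filter.mp hi).2
  have h2 : ∑ j ∈ Finset.range n, ∑ l ∈ Finset.range n, ∑ i ∈ Finset.range (n + 1),
      (if i < m j l then n.choose i else 0) ≤
      ∑ j ∈ Finset.range n, ∑ l ∈ Finset.range n, dimN n (m j l) :=
    Finset.sum_le_sum fun j _ => Finset.sum_le_sum fun l _ => h1 _
  refine le_trans ?_ h2
  have h3 : ∑ j ∈ Finset.range n, ∑ l ∈ Finset.range n, ∑ i ∈ Finset.range (n + 1),
      (if i < m j l then n.choose i else 0) = ∑ i ∈ Finset.range (n + 1),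
      ∑ j ∈ Finset.range n, ∑ l ∈ Finset.range n, (if i < m j l then n.choose i else 0) := by
    have : ∀ j, ∑ l ∈ Finset.range n, ∑ i ∈ Finset.range (n + 1),
      (if i < m j l then n.choose i else 0) = ∑ i ∈ Finset.range (n + 1), ∑ l ∈ Finset.range n,
      (if i < m j l then n.choose i else 0) := fun j => Finset.sum_comm
    simp only [this]
    exact Finset.sum_comm
  rw [h3]
  refine Finset.sum_le_sum fun i hi => ?_
  have hsub : Finset.Ico i (n - d - i) ⊆ Finset.range n := by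
    intro k hk
    rw [Finset.mem_Ico] at hk
    rw [Finset.mem_range]; omega
  have h4 : ∑ j ∈ Finset.Ico i (n - d - i), ∑ l ∈ Finset.Ico i (n - d - i), n.choose i ≤
      ∑ j ∈ Finset.range n, ∑ l ∈ Finset.range n, (if i < m j l then n.choose i else 0) := by
    refine le_trans ?_ (Finset.sum_le_sum_of_subset hsub)
    refine Finset.sum_le_sum fun j hj => ?_
    refine le_trans ?_ (Finset.sum_le_sum_of_subset hsub)
    refine Finset.sum_le_sum fun l hl => ?_
    rw [Finset.mem_Ico] at hj hl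
    rw [if_pos]
    simp only [hm, lt_min_iff]
    refine ⟨⟨by omega, by omega⟩, ?_⟩
    rcases le_total (j + 1) (l + 1) with h | h
    · rw [max_eq_right h]; omega
    · rw [max_eq_left h]; omega
  refine le_trans (le_of_eq ?_) h4
  simp only [Finset.sum_const, Nat.card_Ico, smul_eq_mul]
  have : n - d - i - i = n - d - 2 * i := by omega
  rw [this]; ring

end Binom


section Main
variable {n : ℕ}

/-- sign of a coordinate -/
noncomputable def sgn (i : Fin n) (x : Fin n → Bool) : ℝ := if x i then 1 else -1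

theorem sgn_sq (i : Fin n) (x : Fin n → Bool) : sgn i x * sgn i x = 1 := by
  unfold sgn; split_ifs <;> norm_num

theorem two_sub_sgn (i : Fin n) (x y : Fin n → Bool) :
    2 - 2 * sgn i x * sgn i y = if x i = y i then 0 else 4 := by
  unfold sgn
  cases x i <;> cases y i <;> norm_num

theorem pair_ineq (h : (Fin n → Bool) → ℝ) (hh : ∀ x, h x * h x = 1) (hb : ∀ x y, 0 ≤ 1 - h x * h y)
    (hb2 : ∀ x y, 1 - h x * h y ≤ 2) (x y : Fin n → Bool) :
    (1 - h x * h y) - (1 / 4) * ∑ i, (2 - 2 * sgn i x * sgn i y) ≤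
      ∑ i, (if y = flip i x then (1 - h x * h y) / 2 else 0) := by
  have hnn : 0 ≤ ∑ i, (if y = flip i x then (1 - h x * h y) / 2 else 0) := by
    refine Finset.sum_nonneg fun i _ => ?_
    split_ifs
    · have := hb x y; linarith
    · exact le_refl _
  set D : Finset (Fin n) := Finset.univ.filter (fun i => ¬ (x i = y i)) with hD
  have hsum : ∑ i, (2 - 2 * sgn i x * sgn i y) = 4 * (D.card : ℝ) := by
    simp only [two_sub_sgn]
    rw [hD, Finset.card_filter]
    push_cast
    rw [Finset.mul_sum]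
    refine Finset.sum_congr rfl fun i _ => ?_
    by_cases h : x i = y i
    · simp [h]
    · simp [h]
  rw [hsum]
  rcases Nat.lt_or_ge D.card 2 with h2 | h2
  · rcases Nat.lt_or_ge D.card 1 with h1 | h1
    · have hDe : D = ∅ := Finset.card_eq_zero.mp (by omega)
      have hxy : x = y := by
        funext i
        by_contra hc
        have : i ∈ D := by simp [hD, hc]
        rw [hDe] at this
        simp at this
      have : 1 - h x * h y = 0 := by rw [← hxy, hh]; ring
      rw [this] at hnn ⊢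
      have h0 : (0:ℝ) ≤ D.card := by positivity
      linarith
    · have hc1 : D.card = 1 := by omega
      obtain ⟨i0, hi0⟩ := Finset.card_eq_one.mp hc1
      have hmem : i0 ∈ D := by rw [hi0]; simp
      have hy : y = flip i0 x := by
        funext j
        by_cases hj : j = i0
        · subst hj
          rw [flip_same]
          have : ¬ (x j = y j) := by simpa [hD] using hmem
          cases hx : x j <;> cases hy : y j <;> simp_all
        · rw [flip_ne hj]
          by_contra hc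
          have : j ∈ D := by simp [hD]; exact fun h => hc h.symm
          rw [hi0] at this
          exact hj (by simpa using this)
      have hle : (1 - h x * h y) / 2 ≤ ∑ i, (if y = flip i x then (1 - h x * h y) / 2 else 0) := by
        have := Finset.single_le_sum (f := fun i => if y = flip i x then (1 - h x * h y) / 2 else 0)
          (s := Finset.univ) (fun i _ => by
            show 0 ≤ (if y = flip i x then (1 - h x * h y) / 2 else 0)
            split_ifs
            · have := hb x y; linarith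
            · exact le_refl _) (Finset.mem_univ i0)
        simpa [← hy] using this
      rw [hc1]
      have := hb2 x y
      push_cast
      linarith
  · have h3 : (2:ℝ) ≤ D.card := by exact_mod_cast h2
    have := hb2 x y
    linarith

theorem main_bound (d : ℕ) (hn : 1 ≤ n) (c : Finset (Fin n) → ℝ) (hc : ∀ S, d < S.card → c S = 0)
    (w : (Fin n → Bool) → ℝ) (hw : ∀ x, 0 < w x) (f : (Fin n → Bool) → Bool)
    (hp : ∀ x, ∑ U, c U * chi U x = w x * (if f x then 1 else -1)) :
    (∑ i : Fin n, ((Finset.univ.filter (fun x : Fin n → Bool => f x ≠ f (flip i x))).card : ℝ))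
      ≤ 4 * (d : ℝ) * Real.sqrt n * 2 ^ n := by
  classical
  set s : (Fin n → Bool) → ℝ := fun x => if f x then 1 else -1 with hs
  have hss : ∀ x, s x * s x = 1 := fun x => by simp only [hs]; split_ifs <;> norm_num
  set h : (Fin n → Bool) → ℝ := fun x => chi Finset.univ x * s x with hh_def
  have hh : ∀ x, h x * h x = 1 := by
    intro x
    calc h x * h x = (chi Finset.univ x * chi Finset.univ x) * (s x * s x) := by
          simp only [hh_def]; ring
      _ = 1 := by rw [chi_sq, hss, one_mul]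
  have habs : ∀ x y, (h x * h y) ^ 2 = 1 := fun x y => by
    calc (h x * h y) ^ 2 = (h x * h x) * (h y * h y) := by ring
      _ = 1 := by rw [hh, hh, one_mul]
  have hb : ∀ x y, 0 ≤ 1 - h x * h y := fun x y => by
    have := habs x y; nlinarith [sq_nonneg (h x * h y - 1), sq_nonneg (h x * h y + 1)]
  have hb2 : ∀ x y, 1 - h x * h y ≤ 2 := fun x y => by
    have := habs x y; nlinarith [sq_nonneg (h x * h y - 1), sq_nonneg (h x * h y + 1)]
  set r : (Fin n → Bool) → ℝ := fun x => Real.sqrt (w x) with hr_def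
  have hr : ∀ x, r x ≠ 0 := fun x => (Real.sqrt_pos.mpr (hw x)).ne'
  have hrr : ∀ x, r x * r x = w x := fun x => Real.mul_self_sqrt (hw x).le
  have hrh : ∀ x, r x * r x * h x = chi Finset.univ x * (∑ U, c U * chi U x) := by
    intro x
    rw [hrr, hp]
    simp only [hh_def, hs]; ring
  obtain ⟨P, hF, htr, hband, horth⟩ := exists_flag c hc r h hr hrh
  set K : (Fin n → Bool) → (Fin n → Bool) → ℝ := fun x y => (degOp n P x y) ^ 2 with hK
  have hK0 : ∀ x y, 0 ≤ K x y := fun x y => sq_nonneg _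
  have hstar : ∀ (i : Fin n) x, ∑ y, K x y * (2 - 2 * sgn i x * sgn i y) ≤ 1 := by
    intro i x
    exact star_bound hF (sgn i) (sgn_sq i) (hband i) x
  -- lower bound
  have hA : ((n : ℝ) / 2 - d * Real.sqrt n) * 2 ^ n ≤ ∑ x, ∑ y, K x y * (1 - h x * h y) := by
    rw [hK, sum_sq_eq hF h hh]
    have h1 : ∀ j l : ℕ, (dimN n (min (min (j + 1) (l + 1)) (n + 1 - d - max (j + 1) (l + 1))) : ℝ) ≤
        (P (j + 1) * P (l + 1)).trace - (P (j + 1) * (diagonal h * P (l + 1) * diagonal h)).trace := by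
      intro j l
      rw [← htr]
      exact term_bound hF h hh horth (j + 1) (l + 1) (by omega) (by omega)
    refine le_trans ?_ (Finset.sum_le_sum fun j _ => Finset.sum_le_sum fun l _ => h1 j l)
    refine (sum_phi n d hn).trans ?_
    have h2 := count_bound n d
    have h3 : ((∑ i ∈ Finset.range (n + 1), (n.choose i) * (n - d - 2 * i) ^ 2 : ℕ) : ℝ) ≤
      ((∑ j ∈ Finset.range n, ∑ l ∈ Finset.range n,
        dimN n (min (min (j + 1) (l + 1)) (n + 1 - d - max (j + 1) (l + 1))) : ℕ) : ℝ) := by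
      exact_mod_cast h2
    rw [Nat.cast_sum] at h3
    simp only [Nat.cast_sum, Nat.cast_mul, Nat.cast_pow] at h3
    exact h3
  -- upper bound of the distance sum
  have hB : ∑ x, ∑ y, K x y * ∑ i, (2 - 2 * sgn i x * sgn i y) ≤ n * 2 ^ n := by
    have h1 : ∀ x, ∑ y, K x y * ∑ i, (2 - 2 * sgn i x * sgn i y) ≤ n := by
      intro x
      have h2 : ∑ y, K x y * ∑ i, (2 - 2 * sgn i x * sgn i y) =
          ∑ i, ∑ y, K x y * (2 - 2 * sgn i x * sgn i y) := by
        simp only [Finset.mul_sum]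
        exact Finset.sum_comm
      rw [h2]
      refine (Finset.sum_le_sum fun i _ => hstar i x).trans ?_
      simp
    refine (Finset.sum_le_sum fun x _ => h1 x).trans ?_
    simp only [Finset.sum_const, Finset.card_univ, Fintype.card_pi, Fintype.card_bool,
        Finset.prod_const, Fintype.card_fin, nsmul_eq_mul]
    push_cast; rw [mul_comm]
  -- combine
  have hC : ∑ x, ∑ y, K x y * ((1 - h x * h y) - (1 / 4) * ∑ i, (2 - 2 * sgn i x * sgn i y)) ≤
      ∑ x, ∑ y, K x y * ∑ i, (if y = flip i x then (1 - h x * h y) / 2 else 0) :=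
    Finset.sum_le_sum fun x _ => Finset.sum_le_sum fun y _ =>
      mul_le_mul_of_nonneg_left (pair_ineq h hh hb hb2 x y) (hK0 x y)
  have hD : ∑ x, ∑ y, K x y * ((1 - h x * h y) - (1 / 4) * ∑ i, (2 - 2 * sgn i x * sgn i y)) =
      ∑ x, ∑ y, K x y * (1 - h x * h y) -
      (1 / 4) * ∑ x, ∑ y, K x y * ∑ i, (2 - 2 * sgn i x * sgn i y) := by
    rw [Finset.mul_sum, ← Finset.sum_sub_distrib]
    refine Finset.sum_congr rfl fun x _ => ?_
    rw [Finset.mul_sum, ← Finset.sum_sub_distrib]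
    refine Finset.sum_congr rfl fun y _ => ?_
    ring
  have hE : ∑ x, ∑ y, K x y * ∑ i, (if y = flip i x then (1 - h x * h y) / 2 else 0) =
      ∑ i : Fin n, ∑ x, K x (flip i x) * ((1 - h x * h (flip i x)) / 2) := by
    have h1 : ∀ x, ∑ y, K x y * ∑ i, (if y = flip i x then (1 - h x * h y) / 2 else 0) =
        ∑ i : Fin n, K x (flip i x) * ((1 - h x * h (flip i x)) / 2) := by
      intro x
      simp only [Finset.mul_sum]
      rw [Finset.sum_comm]
      refine Finset.sum_congr rfl fun i _ => ?_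
      rw [Finset.sum_eq_single (flip i x)]
      · simp
      · intro y _ hy; simp [hy]
      · simp
    simp only [h1]
    exact Finset.sum_comm
  have hKe : ∀ (i : Fin n) x, K x (flip i x) ≤ 1 / 4 := by
    intro i x
    have h1 : K x (flip i x) * (2 - 2 * sgn i x * sgn i (flip i x)) ≤ 1 := by
      refine le_trans ?_ (hstar i x)
      refine Finset.single_le_sum (f := fun y => K x y * (2 - 2 * sgn i x * sgn i y)) ?_
        (Finset.mem_univ (flip i x))
      intro y _
      refine mul_nonneg (hK0 x y) ?_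
      rw [two_sub_sgn]; split_ifs <;> norm_num
    rw [two_sub_sgn, flip_same, if_neg (by cases x i <;> simp)] at h1
    linarith
  have hG : ∀ i : Fin n, ∑ x, K x (flip i x) * ((1 - h x * h (flip i x)) / 2) ≤
      (1 / 4) * (2 ^ n - ((Finset.univ.filter (fun x : Fin n → Bool => f x ≠ f (flip i x))).card : ℝ)) := by
    intro i
    have h1 : ∀ x, (1 - h x * h (flip i x)) / 2 = 1 - (if f x ≠ f (flip i x) then 1 else 0) := by
      intro x
      simp only [hh_def]
      rw [chi_flip_mem (Finset.mem_univ i)]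
      have h2 : chi Finset.univ x * s x * (-chi Finset.univ x * s (flip i x)) =
          - (chi Finset.univ x * chi Finset.univ x) * (s x * s (flip i x)) := by ring
      rw [h2, chi_sq]
      simp only [hs]
      cases f x <;> cases f (flip i x) <;> norm_num
    have h3 : ∀ x, K x (flip i x) * ((1 - h x * h (flip i x)) / 2) ≤
        (1 / 4) * (1 - (if f x ≠ f (flip i x) then 1 else 0)) := by
      intro x
      rw [h1]
      refine mul_le_mul_of_nonneg_right (hKe i x) ?_
      split_ifs <;> norm_num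
    refine (Finset.sum_le_sum fun x _ => h3 x).trans (le_of_eq ?_)
    rw [← Finset.mul_sum, Finset.sum_sub_distrib, Finset.card_filter]
    congr 1
    push_cast
    congr 1
    simp
  have hH := Finset.sum_le_sum (s := Finset.univ) fun (i : Fin n) _ => hG i
  rw [← Finset.mul_sum, Finset.sum_sub_distrib] at hH
  simp only [Finset.sum_const, Finset.card_univ, Fintype.card_fin, nsmul_eq_mul] at hH
  rw [hD, hE] at hC
  nlinarith [hC, hH, hA, hB]

theorem exists_perturb (p : (Fin n → Bool) → ℝ) : ∃ ε : ℝ, 0 < ε ∧ ∀ x, p x < 0 → p x + ε < 0 := by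
  have h1 : ∀ᶠ ε in nhdsWithin (0:ℝ) (Set.Ioi 0), ∀ x, p x < 0 → p x + ε < 0 := by
    rw [Filter.eventually_all]
    intro x
    by_cases hx : p x < 0
    · have : ∀ᶠ ε in nhds (0:ℝ), ε < - p x := eventually_lt_nhds (by linarith)
      filter_upwards [nhdsWithin_le_nhds this] with ε hε _
      linarith
    · exact Filter.Eventually.of_forall fun ε h => absurd h hx
  obtain ⟨ε, h2, h3⟩ := (h1.and self_mem_nhdsWithin).exists
  exact ⟨ε, h3, h2⟩

theorem final (n d : ℕ) (hd : 1 ≤ d) (hdn : d ≤ n)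
    (c : Finset (Fin n) → ℝ) (hc : ∀ S, d < S.card → c S = 0)
    (p : (Fin n → Bool) → ℝ)
    (hp : ∀ x, p x = ∑ S : Finset (Fin n), c S * ∏ j ∈ S, (if x j then (1 : ℝ) else -1))
    (f : (Fin n → Bool) → Bool) (hf : ∀ x, f x = decide (0 ≤ p x)) :
    (∑ i : Fin n, ((Finset.univ.filter
        (fun x : Fin n → Bool => f x ≠ f (Function.update x i (!(x i))))).card : ℝ))
      ≤ 8 * (d : ℝ) * Real.sqrt n * 2 ^ n := by
  classical
  obtain ⟨ε, hε, hε2⟩ := exists_perturb p
  set c' : Finset (Fin n) → ℝ := fun S => c S + (if S = ∅ then ε else 0) with hc'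
  have hc2 : ∀ S, d < S.card → c' S = 0 := by
    intro S hS
    have hne : S ≠ ∅ := by rintro rfl; simp at hS
    simp [hc', hc S hS, hne]
  have hsum : ∀ x, ∑ U, c' U * chi U x = p x + ε := by
    intro x
    simp only [hc', add_mul, Finset.sum_add_distrib]
    rw [hp x]
    congr 1
    rw [Finset.sum_eq_single ∅]
    · simp [chi]
    · intro S _ hS; simp [hS]
    · simp
  have hkey : ∀ x, ∑ U, c' U * chi U x = |p x + ε| * (if f x then 1 else -1) := by
    intro x
    rw [hsum, hf]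
    by_cases h0 : 0 ≤ p x
    · rw [abs_of_pos (by linarith)]; simp [h0]
    · rw [abs_of_neg (hε2 x (not_le.mp h0))]; simp [h0]
  have hpos : ∀ x, 0 < |p x + ε| := by
    intro x
    rw [abs_pos]
    rcases lt_or_ge (p x) 0 with h | h
    · exact (hε2 x h).ne
    · have h1 : 0 < p x + ε := by linarith
      exact h1.ne'
  have := main_bound d (le_trans hd hdn) c' hc2 (fun x => |p x + ε|) hpos f hkey
  have h2 : (0:ℝ) ≤ (d : ℝ) * Real.sqrt n * 2 ^ n := by positivity
  unfold flip at this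
  linarith

end Main

end Crest.Agent.PTFSens
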