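import Crest.Statements.S0359
import Crest.Agent.R232.Q359
-- import your own Crest.Agent.* helpers here

set_option autoImplicit false
open MeasureTheory
open scoped ENNReal
open Crest Crest.GeometryTopology

namespace Crest.Agent.S0359

/-- indicator of row `i` -/
def uu {m : ℕ} (i : Fin m) : Fin m × Fin m → ℝ := fun a => if a.1 = i then 1 else 0

/-- indicator of column `j` -/
def vv {m : ℕ} (j : Fin m) : Fin m × Fin m → ℝ := fun a => if a.2 = j then 1 else 0

theorem core (P : ℝ) (hP : 1 < P) (hP2 : P ≠ 2) (m d : ℕ) (c : ℝ) (hc : 0 < c)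
    (S : Set (Fin m × Fin m → ℝ)) (h0 : (0 : Fin m × Fin m → ℝ) ∈ S)
    (hu : ∀ i, uu i ∈ S) (hu' : ∀ i, -uu i ∈ S) (hv : ∀ j, vv j ∈ S) (hv' : ∀ j, -vv j ∈ S)
    (Y : (Fin m × Fin m → ℝ) → Fin d → ℝ)
    (hY : ∀ f ∈ S, ∀ g ∈ S, ∑ k, |Y f k - Y g k| ^ P = c * ∑ a, |f a - g a| ^ P) :
    m ^ 2 ≤ d := by
  have hP0 : P ≠ 0 := by linarith
  -- differences
  have hanti : ∀ f ∈ S, -f ∈ S → ∀ k, Y (-f) k - Y 0 k = -(Y f k - Y 0 k) := by
    intro f hf hf' k
    refine Crest.Agent.R232.antipode P hP d (fun k => Y f k - Y 0 k) (fun k => Y (-f) k - Y 0 k)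
      ?_ ?_ k
    · rw [hY f hf 0 h0, hY (-f) hf' 0 h0]
      simp
    · have e1 : ∀ k, Y f k - Y 0 k - (Y (-f) k - Y 0 k) = Y f k - Y (-f) k := fun k => by ring
      simp_rw [e1]
      rw [hY f hf (-f) hf', hY f hf 0 h0, mul_left_comm]
      congr 1
      rw [Finset.mul_sum]
      refine Finset.sum_congr rfl fun a _ => ?_
      rw [← Real.mul_rpow (by norm_num) (abs_nonneg _)]
      congr 1
      simp only [Pi.neg_apply, Pi.zero_apply, sub_neg_eq_add, sub_zero]
      rw [← two_mul, abs_mul]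
      norm_num
  have hplus : ∀ f ∈ S, ∀ g ∈ S, -g ∈ S →
      ∑ k, |(Y f k - Y 0 k) + (Y g k - Y 0 k)| ^ P = c * ∑ a, |f a + g a| ^ P := by
    intro f hf g hg hg'
    have e1 : ∀ k, (Y f k - Y 0 k) + (Y g k - Y 0 k) = Y f k - Y (-g) k := by
      intro k
      have := hanti g hg hg' k
      linarith
    simp_rw [e1]
    rw [hY f hf (-g) hg']
    simp
  have hminus : ∀ f ∈ S, ∀ g ∈ S,
      ∑ k, |(Y f k - Y 0 k) - (Y g k - Y 0 k)| ^ P = c * ∑ a, |f a - g a| ^ P := by
    intro f hf g hg
    have e1 : ∀ k, (Y f k - Y 0 k) - (Y g k - Y 0 k) = Y f k - Y g k := by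
      intro k
      ring
    simp_rw [e1]
    rw [hY f hf g hg]
  have hnorm : ∀ f ∈ S, ∑ k, |Y f k - Y 0 k| ^ P = c * ∑ a, |f a| ^ P := by
    intro f hf
    rw [hY f hf 0 h0]
    simp
  -- disjoint supports
  have hdisj : ∀ f ∈ S, ∀ g ∈ S, -g ∈ S → (∀ a, f a = 0 ∨ g a = 0) →
      ∀ k, Y f k - Y 0 k = 0 ∨ Y g k - Y 0 k = 0 := by
    intro f hf g hg hg' hfg k
    refine Crest.Agent.R232.disj P hP hP2 d (fun k => Y f k - Y 0 k) (fun k => Y g k - Y 0 k) ?_ k
    rw [hplus f hf g hg hg', hminus f hf g hg, hnorm f hf, hnorm g hg, ← mul_add, ← mul_add,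
      mul_left_comm]
    congr 1
    rw [← Finset.sum_add_distrib, ← Finset.sum_add_distrib, Finset.mul_sum]
    refine Finset.sum_congr rfl fun a _ => ?_
    rcases hfg a with h | h
    · rw [h, zero_add, zero_sub, abs_neg, abs_zero, Real.zero_rpow hP0]; ring
    · rw [h, add_zero, sub_zero, abs_zero, Real.zero_rpow hP0]; ring
  -- intersections
  have hcross : ∀ i j : Fin m, ∃ k : Fin d, Y (uu i) k - Y 0 k ≠ 0 ∧ Y (vv j) k - Y 0 k ≠ 0 := by
    intro i j
    by_contra hcon
    push Not at hcon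
    have h1 : ∑ k, |(Y (uu i) k - Y 0 k) + (Y (vv j) k - Y 0 k)| ^ P +
        ∑ k, |(Y (uu i) k - Y 0 k) - (Y (vv j) k - Y 0 k)| ^ P =
        2 * (∑ k, |Y (uu i) k - Y 0 k| ^ P + ∑ k, |Y (vv j) k - Y 0 k| ^ P) := by
      rw [← Finset.sum_add_distrib, ← Finset.sum_add_distrib, Finset.mul_sum]
      refine Finset.sum_congr rfl fun k _ => ?_
      by_cases h : Y (uu i) k - Y 0 k = 0
      · rw [h, zero_add, zero_sub, abs_neg, abs_zero, Real.zero_rpow hP0]; ring
      · have h' := hcon k h
        rw [h', add_zero, sub_zero, abs_zero, Real.zero_rpow hP0]; ring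
    rw [hplus _ (hu i) _ (hv j) (hv' j), hminus _ (hu i) _ (hv j), hnorm _ (hu i),
      hnorm _ (hv j), ← mul_add, ← mul_add, mul_left_comm] at h1
    have h2 := mul_left_cancel₀ hc.ne' h1
    have h3 : ∑ a : Fin m × Fin m, (|uu i a + vv j a| ^ P + |uu i a - vv j a| ^ P -
        2 * (|uu i a| ^ P + |vv j a| ^ P)) = 0 := by
      rw [Finset.sum_sub_distrib, Finset.sum_add_distrib, ← Finset.mul_sum,
        Finset.sum_add_distrib]
      linarith
    rw [Finset.sum_eq_single (i, j)] at h3
    · have e1 : uu i (i, j) = 1 := by simp [uu]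
      have e2 : vv j (i, j) = 1 := by simp [vv]
      rw [e1, e2, sub_self, abs_zero, Real.zero_rpow hP0, abs_one, Real.one_rpow] at h3
      have h4 : (2 : ℝ) ^ P = 2 ^ (2 : ℝ) := by
        rw [Real.rpow_two]
        norm_num at h3 ⊢
        linarith
      have h5 : P = 2 := by
        have := congrArg Real.log h4
        rw [Real.log_rpow (by norm_num), Real.log_rpow (by norm_num)] at this
        exact mul_right_cancel₀ (Real.log_pos (by norm_num)).ne' this
      exact hP2 h5
    · intro a _ ha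
      by_cases ha1 : a.1 = i
      · have ha2 : a.2 ≠ j := fun h => ha (Prod.ext ha1 h)
        have e2 : vv j a = 0 := by simp [vv, ha2]
        rw [e2, add_zero, sub_zero, abs_zero, Real.zero_rpow hP0]; ring
      · have e1 : uu i a = 0 := by simp [uu, ha1]
        rw [e1, zero_add, zero_sub, abs_neg, abs_zero, Real.zero_rpow hP0]; ring
    · intro h
      exact absurd (Finset.mem_univ _) h
  choose κ hκ1 hκ2 using hcross
  have hinj : Function.Injective (fun a : Fin m × Fin m => κ a.1 a.2) := by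
    intro a b hab
    simp only at hab
    apply Prod.ext
    · by_contra hne
      have hd := hdisj (uu a.1) (hu _) (uu b.1) (hu _) (hu' _) (by
        intro c
        by_cases hc1 : c.1 = a.1
        · right
          have : c.1 ≠ b.1 := fun h => hne (hc1 ▸ h)
          simp [uu, this]
        · left
          simp [uu, hc1]) (κ a.1 a.2)
      rcases hd with h | h
      · exact hκ1 a.1 a.2 h
      · rw [hab] at h
        exact hκ1 b.1 b.2 h
    · by_contra hne
      have hd := hdisj (vv a.2) (hv _) (vv b.2) (hv _) (hv' _) (by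
        intro c
        by_cases hc1 : c.2 = a.2
        · right
          have : c.2 ≠ b.2 := fun h => hne (hc1 ▸ h)
          simp [vv, this]
        · left
          simp [vv, hc1]) (κ a.1 a.2)
      rcases hd with h | h
      · exact hκ2 a.1 a.2 h
      · rw [hab] at h
        exact hκ2 b.1 b.2 h
  have := Fintype.card_le_of_injective _ hinj
  simpa [sq] using this

/-- Fix an exponent 1 < p < ∞ with p ≠ 2 and n ≥ 9. If d is a dimension such that every n distinct points of any real L^p space can be mapped to the d-dimensional real ℓ^p space with all pairwise distances multiplied by one common factor s > 0 (an isometric embedding up to scaling), then ⌊(n − 1)/4⌋² ≤ d. -/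
theorem result
    (p : ℝ≥0∞) [Fact (1 ≤ p)] (hp1 : 1 < p) (hptop : p ≠ ⊤) (hp2 : p ≠ 2)
    (n : ℕ) (hn : 9 ≤ n) (d : ℕ)
    (hd : ∀ (α : Type) [MeasurableSpace α] (μ : Measure α) (x : Fin n → Lp ℝ p μ),
      Function.Injective x →
      ∃ (y : Fin n → PiLp p (fun _ : Fin d => ℝ)) (s : ℝ), 0 < s ∧
        ∀ i j, ‖y i - y j‖ = s * ‖x i - x j‖) :
    ((n - 1) / 4) ^ 2 ≤ d := by
  classical
  set m := (n - 1) / 4 with hm
  have hp0 : p ≠ 0 := (zero_lt_one.trans hp1).ne'
  have hP : 1 < p.toReal := by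
    have := (ENNReal.toReal_lt_toReal (by simp) hptop).2 hp1
    simpa using this
  have hP0 : 0 < p.toReal := by linarith
  have hP2 : p.toReal ≠ 2 := by
    intro h
    apply hp2
    rw [← ENNReal.ofReal_toReal hptop, h]
    simp
  letI : MeasurableSpace (Fin m × Fin m) := ⊤
  haveI : DiscreteMeasurableSpace (Fin m × Fin m) := ⟨fun _ => trivial⟩
  let μ : Measure (Fin m × Fin m) := Measure.count
  have hmem : ∀ f : Fin m × Fin m → ℝ, MemLp f p μ := fun f => MemLp.of_discrete
  let F : (Fin m × Fin m → ℝ) → Lp ℝ p μ := fun f => (hmem f).toLp f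
  have hF : ∀ f g : Fin m × Fin m → ℝ, ‖F f - F g‖ ^ p.toReal = ∑ a, |f a - g a| ^ p.toReal := by
    intro f g
    have e1 : F f - F g = (hmem (f - g)).toLp (f - g) := (MemLp.toLp_sub (hmem f) (hmem g)).symm
    rw [e1, Lp.norm_toLp, eLpNorm_eq_lintegral_rpow_enorm_toReal hp0 hptop, lintegral_count,
      tsum_fintype, ← ENNReal.toReal_rpow, ← Real.rpow_mul (by positivity),
      one_div_mul_cancel hP0.ne', Real.rpow_one, ENNReal.toReal_sum]
    · refine Finset.sum_congr rfl fun a _ => ?_
      rw [← ENNReal.toReal_rpow]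
      simp
    · intro a _
      exact ENNReal.rpow_ne_top_of_nonneg hP0.le (by simp)
  -- the points
  let S0 : Finset (Fin m × Fin m → ℝ) :=
    {0} ∪ ((Finset.univ.image (fun i : Fin m => uu i)) ∪
      (Finset.univ.image (fun i : Fin m => -uu i)) ∪
      ((Finset.univ.image (fun i : Fin m => vv i)) ∪ (Finset.univ.image (fun i : Fin m => -vv i))))
  have hcard : S0.card ≤ n := by
    have h1 : ∀ f : Fin m → (Fin m × Fin m → ℝ), (Finset.univ.image f).card ≤ m := by
      intro f
      exact Finset.card_image_le.trans (by simp)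
    have h2 : S0.card ≤ 1 + ((m + m) + (m + m)) := by
      refine (Finset.card_union_le _ _).trans ?_
      refine Nat.add_le_add (by simp) ?_
      refine (Finset.card_union_le _ _).trans ?_
      refine Nat.add_le_add ?_ ?_
      · exact (Finset.card_union_le _ _).trans (Nat.add_le_add (h1 _) (h1 _))
      · exact (Finset.card_union_le _ _).trans (Nat.add_le_add (h1 _) (h1 _))
    omega
  haveI : Nonempty (Fin m × Fin m) := by
    have : 0 < m := by omega
    exact ⟨⟨0, this⟩, ⟨0, this⟩⟩
  haveI : Infinite (Fin m × Fin m → ℝ) := inferInstance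
  obtain ⟨T, hST, hT⟩ := Infinite.exists_superset_card_eq S0 n hcard
  let e : Fin n ≃ T := (Fintype.equivFinOfCardEq (by simpa using hT)).symm
  have hxinj : Function.Injective (fun i => F (e i)) := by
    intro i j hij
    have h1 : ‖F (e i) - F (e j)‖ ^ p.toReal = 0 := by
      have : F (e i) = F (e j) := hij
      rw [this, sub_self, norm_zero, Real.zero_rpow hP0.ne']
    rw [hF, Finset.sum_eq_zero_iff_of_nonneg (fun a _ => by positivity)] at h1
    apply e.injective
    apply Subtype.ext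
    funext a
    have := h1 a (Finset.mem_univ _)
    rw [Real.rpow_eq_zero (abs_nonneg _) hP0.ne', abs_eq_zero] at this
    linarith
  obtain ⟨y, s, hs, hy⟩ := hd (Fin m × Fin m) μ (fun i => F (e i)) hxinj
  refine core p.toReal hP hP2 m d (s ^ p.toReal) (Real.rpow_pos_of_pos hs _) (T : Set _)
    (hST (by simp [S0])) (fun i => hST (by simp [S0])) (fun i => hST (by simp [S0]))
    (fun i => hST (by simp [S0])) (fun i => hST (by simp [S0]))
    (fun f k => if h : f ∈ T then y (e.symm ⟨f, h⟩) k else 0) ?_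
  intro f hf g hg
  have hf' : f ∈ T := hf
  have hg' : g ∈ T := hg
  simp only [hf', hg', dif_pos]
  have h1 := hy (e.symm ⟨f, hf'⟩) (e.symm ⟨g, hg'⟩)
  rw [Equiv.apply_symm_apply, Equiv.apply_symm_apply] at h1
  have h2 := congrArg (fun t : ℝ => t ^ p.toReal) h1
  simp only at h2
  rw [Real.mul_rpow hs.le (norm_nonneg _), hF, PiLp.norm_eq_sum hP0,
    ← Real.rpow_mul (by positivity), one_div_mul_cancel hP0.ne', Real.rpow_one] at h2
  rw [← h2]
  refine Finset.sum_congr rfl fun k _ => ?_
  rw [Real.norm_eq_abs]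
  rfl

end Crest.Agent.S0359
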