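import Crest.Statements.S0504
import Crest.Agent.R327.Assemble
import Crest.Agent.R327.Numeric

set_option autoImplicit false
universe u v
open Crest Crest.LogicCS

namespace Crest.Agent.S0504

/-- There is an absolute threshold n₀ such that, for every n ≥ n₀, every field K of characteristic zero, and every syntactically homogeneous depth-five sum-product circuit over K in the n³ matrix-entry variables (gates may be shared; fan-in is unrestricted; a bottom sum may read any number of leaves) whose output is the top-left entry of the ordered product of the n variable matrices of order n, the number of vertices of the circuit, leaves included, is at least n^(√n/400). -/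
theorem result :
    ∃ n₀ : ℕ, ∀ n ≥ n₀, ∀ (K : Type u) [Field K] [CharZero K]
      (L B P S R : Type v) [Fintype L] [Fintype B] [Fintype P] [Fintype S] [Fintype R]
      (C : Crest.ArithCircuit.SPSPS K (Fin n × Fin n × Fin n) L B P S R),
      C.IsHomogeneous → C.output = Crest.ArithCircuit.imm K n →
        (n : ℝ) ^ (Real.sqrt n / 400) ≤ (C.size : ℝ) := by
  obtain ⟨n₀, hn₀⟩ := Crest.Agent.R327.exists_threshold
  refine ⟨n₀, ?_⟩
  intro n hn K _ _ L B P S R _ _ _ _ _ C hC hout
  obtain ⟨h16, hlog⟩ := hn₀ n hn
  obtain ⟨γ, r, hγ, hr, hr2, hγr, hΛ, hfin⟩ := Crest.Agent.R327.numeric n h16 hlog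
  apply hfin
  · have : 1 ≤ C.size := by
      unfold Crest.ArithCircuit.SPSPS.size
      omega
    exact_mod_cast this
  · have hm : 1 ≤ Nat.sqrt n := by
      rw [Nat.le_sqrt']; omega
    exact Crest.Agent.R327.main_ineq h16 hm hγ hr hr2 hγr hΛ C hC hout

end Crest.Agent.S0504
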