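import Crest.Statements.S0505
import Crest.Agent.Row327b.Imm

set_option autoImplicit false
universe u
open Crest Crest.LogicCS

namespace Crest.Agent.S0505

theorem numeric (n : ℕ) (hn : 2 ≤ n) (t r : ℕ) (ht : t = ⌈Real.sqrt n⌉₊)
    (hr : r = ⌈(n : ℝ) / t⌉₊) :
    1 ≤ t ∧ 1 ≤ r ∧ n ≤ r * t ∧ (∀ g ≤ r - 1, g * t < n) ∧
      ((2 * n ^ 3 + r * n ^ 2 + r * n ^ (t + 1) + n ^ (r - 1) + 1 : ℕ) : ℝ) ≤
        (n : ℝ) ^ (Real.sqrt n + 4) := by
  have hn0 : (0 : ℝ) < n := by positivity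
  have hn2 : (2 : ℝ) ≤ n := by exact_mod_cast hn
  have hs1 : 1 ≤ Real.sqrt n := by
    rw [Real.one_le_sqrt]; linarith
  have hs0 : 0 < Real.sqrt n := by linarith
  have ht1 : 1 ≤ t := by
    rw [ht]
    exact Nat.one_le_ceil_iff.mpr hs0
  have ht0 : (0 : ℝ) < t := by exact_mod_cast ht1
  have hst : Real.sqrt n ≤ t := by rw [ht]; exact Nat.le_ceil _
  have htlt : (t : ℝ) < Real.sqrt n + 1 := by rw [ht]; exact Nat.ceil_lt_add_one hs0.le
  have hnt : 0 < (n : ℝ) / t := by positivity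
  have hr1 : 1 ≤ r := by
    rw [hr]
    exact Nat.one_le_ceil_iff.mpr hnt
  have hrge : (n : ℝ) / t ≤ r := by rw [hr]; exact Nat.le_ceil _
  have hrlt : (r : ℝ) < (n : ℝ) / t + 1 := by rw [hr]; exact Nat.ceil_lt_add_one hnt.le
  have hnrt : n ≤ r * t := by
    rw [div_le_iff₀ ht0] at hrge
    exact_mod_cast hrge
  have hr1' : ((r - 1 : ℕ) : ℝ) = (r : ℝ) - 1 := by
    rw [Nat.cast_sub hr1, Nat.cast_one]
  have hgt : ∀ g ≤ r - 1, g * t < n := by
    intro g hg
    have h1 : (g : ℝ) ≤ (r : ℝ) - 1 := by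
      rw [← hr1']; exact_mod_cast hg
    have h2 : (g : ℝ) < (n : ℝ) / t := by linarith
    rw [lt_div_iff₀ ht0] at h2
    exact_mod_cast h2
  refine ⟨ht1, hr1, hnrt, hgt, ?_⟩
  have hmul : Real.sqrt n * Real.sqrt n = n := Real.mul_self_sqrt hn0.le
  -- r - 1 < n / t ≤ sqrt n
  have hnts : (n : ℝ) / t ≤ Real.sqrt n := by
    rw [div_le_iff₀ ht0]
    nlinarith
  have hrn : (r : ℝ) ≤ n := by
    have h1 : (r : ℝ) < Real.sqrt n + 1 := by linarith
    by_cases h4 : n < 4
    · -- n = 2, 3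
      have : r ≤ 2 := by
        have h5 : Real.sqrt n < 2 := by
          rw [Real.sqrt_lt' (by norm_num)]
          have : (n : ℝ) < 4 := by exact_mod_cast h4
          linarith
        have h6 : (r : ℝ) < 3 := by linarith
        have h7 : r < 3 := by exact_mod_cast h6
        omega
      have : (r : ℝ) ≤ 2 := by exact_mod_cast this
      linarith
    · have h4' : (4 : ℝ) ≤ n := by exact_mod_cast (not_lt.mp h4)
      have h5 : 2 ≤ Real.sqrt n := by
        rw [Real.le_sqrt' (by norm_num)]; linarith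
      nlinarith
  by_cases hn3 : n = 2
  · subst hn3
    have hsq : Real.sqrt ((2 : ℕ) : ℝ) < 2 := by
      rw [Real.sqrt_lt' (by norm_num)]; norm_num
    have hsq1 : 1 < Real.sqrt ((2 : ℕ) : ℝ) := by
      rw [Real.lt_sqrt (by norm_num)]; norm_num
    have ht2 : t = 2 := by
      have h1 : (1 : ℝ) < t := by linarith
      have h2 : (t : ℝ) < 3 := by linarith
      have h1' : 1 < t := by exact_mod_cast h1
      have h2' : t < 3 := by exact_mod_cast h2
      omega
    have hr2 : r = 1 := by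
      have h1 : (r : ℝ) < 2 := by
        rw [ht2] at hrlt
        push_cast at hrlt
        linarith
      have : r < 2 := by exact_mod_cast h1
      omega
    rw [ht2, hr2]
    norm_num
    calc (30 : ℝ) ≤ 2 ^ (5 : ℝ) := by norm_num
      _ ≤ 2 ^ (Real.sqrt 2 + 4) := by
        apply Real.rpow_le_rpow_of_exponent_le (by norm_num)
        have : Real.sqrt ((2 : ℕ) : ℝ) = Real.sqrt 2 := by norm_num
        linarith
  · have hn3' : 3 ≤ n := by omega
    have hn3r : (3 : ℝ) ≤ n := by exact_mod_cast hn3'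
    have hn1 : (1 : ℝ) ≤ n := by linarith
    set N : ℝ := (n : ℝ) ^ (Real.sqrt n + 2) with hN
    have hN3 : (n : ℝ) ^ 3 ≤ N := by
      rw [← Real.rpow_natCast]
      apply Real.rpow_le_rpow_of_exponent_le hn1
      push_cast
      linarith
    have hNt : (n : ℝ) ^ (t + 1) ≤ N := by
      rw [← Real.rpow_natCast]
      apply Real.rpow_le_rpow_of_exponent_le hn1
      push_cast
      linarith
    have hNr : (n : ℝ) ^ (r - 1) ≤ N := by
      rw [← Real.rpow_natCast]
      apply Real.rpow_le_rpow_of_exponent_le hn1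
      rw [hr1']
      linarith
    have hN1 : 1 ≤ N := by
      refine le_trans ?_ hN3
      exact one_le_pow₀ hn1
    have hfin : (n : ℝ) ^ (Real.sqrt n + 4) = n ^ 2 * N := by
      rw [hN, show Real.sqrt n + 4 = (2 : ℕ) + (Real.sqrt n + 2) by push_cast; ring,
        Real.rpow_add hn0, Real.rpow_natCast]
    rw [hfin]
    push_cast
    have hr0 : (0 : ℝ) ≤ r := by positivity
    have hN0 : 0 ≤ N := by linarith
    have e1 : (r : ℝ) * n ^ 2 ≤ n ^ 3 := by nlinarith [sq_nonneg (n : ℝ)]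
    have e2 : (r : ℝ) * n ^ (t + 1) ≤ n * N :=
      mul_le_mul hrn hNt (by positivity) hn0.le
    have e3 : (5 + (n : ℝ)) * N ≤ n ^ 2 * N := by
      apply mul_le_mul_of_nonneg_right _ hN0
      nlinarith
    nlinarith

/-- For every field K and every n ≥ 2 there is a syntactically homogeneous depth-five sum-product circuit over K in the n³ matrix-entry variables (shared gates, unrestricted fan-in and bottom support) whose output is the top-left entry of the ordered product of the n variable matrices of order n and whose number of vertices, leaves included, is at most 2n³ + r·n² + r·n^(t+1) + n^(r−1) + 1 with t = ⌈√n⌉, r = ⌈n/t⌉, and also at most n^(√n + 4). Layers are indexed by initial segments of ℕ. -/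
theorem result (K : Type u) [Field K] (n : ℕ)
    (hn : 2 ≤ n) :
    ∃ (l b p s r : ℕ)
      (C : Crest.ArithCircuit.SPSPS K (Fin n × Fin n × Fin n) (Fin l) (Fin b) (Fin p) (Fin s) (Fin r)),
      C.IsHomogeneous ∧ C.output = Crest.ArithCircuit.imm K n ∧
        C.size ≤ 2 * n ^ 3 + ⌈(n : ℝ) / ⌈Real.sqrt n⌉₊⌉₊ * n ^ 2 +
          ⌈(n : ℝ) / ⌈Real.sqrt n⌉₊⌉₊ * n ^ (⌈Real.sqrt n⌉₊ + 1) +
          n ^ (⌈(n : ℝ) / ⌈Real.sqrt n⌉₊⌉₊ - 1) + 1 ∧
        (C.size : ℝ) ≤ (n : ℝ) ^ (Real.sqrt n + 4) := by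
  obtain ⟨t, ht⟩ : ∃ t, t = ⌈Real.sqrt n⌉₊ := ⟨_, rfl⟩
  rw [← ht]
  obtain ⟨r, hr⟩ : ∃ r, r = ⌈(n : ℝ) / t⌉₊ := ⟨_, rfl⟩
  rw [← hr]
  obtain ⟨ht1, hr1, hnrt, hgt, hsize⟩ := numeric n hn t r ht hr
  obtain ⟨n, rfl⟩ : ∃ m, n = m + 1 := ⟨n - 1, by omega⟩
  obtain ⟨r, rfl⟩ : ∃ m, r = m + 1 := ⟨r - 1, by omega⟩
  rw [Nat.add_sub_cancel] at hgt hsize ⊢
  let C := Crest.Agent.Row327b.immC K (n + 1) t r
  let C' := Crest.Agent.Row327b.reindex C (Fintype.equivFin _) (Fintype.equivFin _)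
    (Fintype.equivFin _) (Fintype.equivFin _) (Fintype.equivFin _)
  have hs : C'.size = 2 * (n + 1) ^ 3 + (r + 1) * (n + 1) ^ 2 + (r + 1) * (n + 1) ^ (t + 1) +
      (n + 1) ^ r + 1 := by
    simp only [Crest.ArithCircuit.SPSPS.size, Fintype.card_fin, Fintype.card_prod, Fintype.card_fun]
    ring
  refine ⟨_, _, _, _, _, C', ?_, ?_, ?_, ?_⟩
  · apply Crest.Agent.Row327b.reindex_isHomogeneous
    exact Crest.Agent.Row327b.immC_isHomogeneous K (n + 1) t r hgt ht1
  · rw [Crest.Agent.Row327b.reindex_output]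
    exact Crest.Agent.Row327b.immC_output K (n + 1) t r hnrt
  · rw [hs]
  · rw [hs]
    exact hsize

end Crest.Agent.S0505
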